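import Crest.Agent.N255.Jt.Jet
import Crest.Agent.N255.Lz.Vx
import Crest.Agent.N255.Cs.Id
import Crest.Agent.N255.Cs.OnO

/-!
# Row 255 (helper48): linear parts of the generators
-/

set_option autoImplicit false
open Set Module

noncomputable section

namespace Crest.Agent.N255.Jt

open Cs Cs.Tw Tp Ku Lp Io _root_.N255.Dr _root_.N255.Dr.O _root_.N255.Sl

section gen

variable {p : ℕ} [Fact p.Prime] {K O : Type} [Field K] [CommRing O] [Algebra K O] [Module.Finite K O]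
  {G : Gr (Gm p) K O} {m J : Ideal O} {X : Type} [TopologicalSpace X] {g : Cn G X}
  {κ α ι β : Type} [Fintype κ] [Fintype α] {Y : Lz.Gz K X κ α ι} {ε : α → Tw G}

/-- all generators of the located ideals lie in `J` -/
theorem zn_E (h : ∀ k, Y.ρ k ∈ (Y.P k).ch K 4) (hJ : G.Id J) (f : ∀ k, CI (Y.P k) J (Y.f g ε))
    {b : β → O} (hb : ∀ i, b i ∈ J) (dp : κ → Prop) (Wt : ℕ → Ideal O) (μ : ℕ) (Kk : ι → Ideal O)
    (a : (α × Gm p) ⊕ Y.Bx g ε β) :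
    (Y.zn g ε Wt m μ (Y.bx g ε dp b) (Y.px g ε) Kk).E a ∈ J := by
  rcases a with a | i | i
  · exact Lz.Gz.E_mem h hJ f a.1 a.2
  · exact hb i
  · rcases Lz.Gz.bx_inr (dp := dp) (b := b) i with e | ⟨-, -, e⟩
    · exact (show Y.bx g ε dp b (.inr i) ∈ J from e ▸ zero_mem J)
    · exact (Lz.vI_le hJ).2 (f _) e

end gen

theorem Pu_le {A : Type*} [CommRing A] {κ α ι : Type*} {Z : Zn A κ α ι} {J : Ideal A}
    (h : ∀ a, Z.E a ∈ J) : Z.Pu ≤ J :=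
  iSup₂_le fun a _ => (Ideal.span_singleton_le_iff_mem _).2 (h a)

theorem adj_E {A : Type*} [CommRing A] {κ α ι : Type*} {Z : Zn A κ α ι} {J X : Ideal A}
    (h : ∀ a, Z.E a ∈ J) (hX : X ≤ Z.Pu) (e : ι) {r : α → A} (hr : ∀ a, r a ∈ X) (a : α) :
    (Z.adj X e r).E a ∈ J := add_mem (h a) (Pu_le h (hX (hr a)))

variable {p : ℕ} [Fact p.Prime] {K σ : Type} [Field K] [Fintype σ] [Fact ((p : K) = 0)]

/-- elements whose linear part only involves the variables in `T` -/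
def Jl (p : ℕ) (K : Type) [Field K] {σ : Type} (T : Set σ) : Ideal (O p K σ) := Zs p K T ⊔ mx * mx

variable {T T' : Set σ} {G : Gr (Gm p) K (O p K σ)} {d : σ → Gm p}

omit [Fact p.Prime] [Fintype σ] [Fact ((p : K) = 0)] in
theorem Jl_eq : Jl p K T = mx ^ 2 ⊔ Zs p K T := by rw [Jl, sup_comm, sq]

omit [Fact p.Prime] [Fintype σ] [Fact ((p : K) = 0)] in
theorem Jl_mx : Jl p K T ≤ mx := sup_le (Zs_mx T) Ideal.mul_le_left

omit [Fact p.Prime] [Fintype σ] [Fact ((p : K) = 0)] in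
theorem Zs_mono (h : T ⊆ T') : Zs p K T ≤ Zs p K T' := Ideal.span_mono (image_mono h)

omit [Fact p.Prime] [Fintype σ] [Fact ((p : K) = 0)] in
theorem Jl_mono (h : T ⊆ T') : Jl p K T ≤ Jl p K T' := sup_le_sup_right (Zs_mono h) _

omit [Fact p.Prime] [Fintype σ] [Fact ((p : K) = 0)] in
theorem Jl_sup : Jl p K T ⊔ mx * mx = Jl p K T := by rw [Jl, sup_assoc, sup_idem]

omit [Fact p.Prime] [Fintype σ] [Fact ((p : K) = 0)] in
theorem z_Jl {a : σ} (h : a ∈ T) : (z a : O p K σ) ∈ Jl p K T := Ideal.mem_sup_left (z_Zs h)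

omit [Fintype σ] [Fact ((p : K) = 0)] in
theorem id_Zs (hO : ∀ i, G.Hg (d i) (z i)) (T : Set σ) : G.Id (Zs p K T) :=
  G.id_span_hg (by rintro _ ⟨i, -, rfl⟩; exact ⟨_, hO i⟩)

omit [Fintype σ] [Fact ((p : K) = 0)] in
theorem id_Jl (hO : ∀ i, G.Hg (d i) (z i)) (T : Set σ) : G.Id (Jl p K T) :=
  (id_Zs hO T).sup ((Tg.id_mx hO).mul (Tg.id_mx hO))

omit [Fact p.Prime] [Fintype σ] in
theorem pd_Jl {u : σ} (hu : u ∉ T) {x : O p K σ} (hx : x ∈ Jl p K T) : pd u x ∈ mx :=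
  pd_sup hu (by rwa [← Jl_eq])

omit [Fact p.Prime] [Fintype σ] [Fact ((p : K) = 0)] in
theorem map_Jl {τ : Type} {U : Set τ} (φ : O p K σ →ₐ[K] O p K τ) (h : ∀ a, φ (z a) ∈ mx)
    (hT : ∀ a ∈ T, φ (z a) ∈ Jl p K U) {x : O p K σ} (hx : x ∈ Jl p K T) : φ x ∈ Jl p K U := by
  rw [Jl_eq] at hx
  obtain ⟨a, ha, b, hb, rfl⟩ := Submodule.mem_sup.1 hx
  rw [map_add]
  exact add_mem (Ideal.mem_sup_right (sq (mx : Ideal (O p K τ)) ▸ map_mx_pow _ h ha))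
    (map_Zs φ hT hb)

end Crest.Agent.N255.Jt

end
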