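import Crest.Agent.N255.Jt.O
import Crest.Agent.N255.Ms.Bas

/-!
# Row 255 (helper48): the linear part of the vertex family modulo an ideal
-/

set_option autoImplicit false
open Set Module

noncomputable section

namespace Crest.Agent.N255.Jt

open Cs Cs.Tw Tp Ku Lp

variable {p : ℕ} [Fact p.Prime] {K O : Type} [Field K] [CommRing O] [Algebra K O]
  {G : Gr (Gm p) K O} {m J : Ideal O} {X : Type} [TopologicalSpace X]
  {g g1 : Cn G X} {hm : G.Id m} {S : Co (Tw G) 2 X} {A : Co (Tw G) 1 X}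

theorem base_in (u1 : ∀ σ, g1 σ ∈ U hm) (mJ : m * m ≤ J) (h : ∀ σ, In J ((Cs.dif g1 1 - A) σ))
    (hS : ∀ σ, In J ((S - cob K A) σ)) (σ : Sx 2 X) : In J ((cur g1 - S) σ) :=
  In.eq (In.sub (In.add ((jq_cur (K := K) u1 σ).mono mJ) (ci_univ.1 (ci_cob (ci_univ.2 h)) σ)) (hS σ))
    (by simp only [map_sub, Pi.sub_apply]; abel)

section fam

variable [Module.Finite K O] {H : Co K 2 X →ₗ[K] Co K 1 X} (F : Fam hm H g1 S g) (mJ : m * m ≤ J)
  (h : ∀ σ, In J ((Cs.dif g1 1 - A) σ)) (hS : ∀ σ, In J ((S - cob K A) σ))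
include F mJ h hS

theorem fam_nl (σ : Sx 2 X) : In J (nl K g1 S g σ) :=
  In.eq (In.add ((nl_jq F σ).mono mJ) (base_in F.u1 mJ h hS σ)) (by abel)

theorem fam_dif (σ : Sx 1 X) : In J (Cs.dif g g1 σ) := by
  rw [F.eq]; exact In.neg (tens_in H (fam_nl F mJ h hS) σ)

/-- **the normalised curvature lies in `J`** -/
theorem fam_cur (σ : Sx 2 X) : In J ((cur g - S) σ) :=
  In.eq (In.add (fam_nl F mJ h hS σ) (ci_univ.1 (ci_cob (ci_univ.2 (fam_dif F mJ h hS))) σ))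
    (by simp only [nl, Pi.sub_apply]; abel)

theorem fam_tev (D : Dual K (Co K 2 X)) : In J (tev D (nl K g1 S g)) := tev_in D (fam_nl F mJ h hS)

end fam

variable {t : Fin 3 → Bool} {V : Vt K X t} {x a b : Fin 3 → (Tw G)ˣ} {C : Fin 3 → Set X}
  {ε : Fin 3 → Tw G}

theorem lin_in (hC : Pairwise fun i j => Disjoint (C i) (C j)) (hx : ∀ i, In J ((x i).val - 1))
    (ha : ∀ i, In J ((a i).val - 1)) (hb : ∀ i, In J ((b i).val - 1 - ε i)) (σ : Sx 1 X) :
    In J (Ms.lin V (Ms.slv C) x a b σ - src (fun i => Wv.ct (C i) (Ms.zc K (V.T i).be)) ε σ) := by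
  rw [Ms.lin_eq hC]
  refine In.eq (In.add (In.sum fun i (_ : i ∈ Finset.univ) =>
    in_smul (Wv.ct (⋃ j, C j)ᶜ (Ms.zc K (V.M.x i)) σ) (hx i)) (In.sum fun i (_ : i ∈ Finset.univ) =>
      In.add (in_smul (Wv.ct (C i) (Ms.zc K (V.T i).al) σ) (ha i))
        (in_smul (Wv.ct (C i) (Ms.zc K (V.T i).be) σ) (hb i)))) ?_
  simp only [src, smul_sub, Finset.sum_add_distrib, Finset.sum_sub_distrib]
  abel

/-- the base: modulo `J` only the jumps `ε` of the longitudes are seen -/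
theorem bs_in {hn : IsNilpotent m} {hx : ∀ j, x j ∈ U hm} (mJ : m * m ≤ J)
    (hC : Pairwise fun i j => Disjoint (C i) (C j)) (ua : ∀ j, a j ∈ U hm) (ub : ∀ j, b j ∈ U hm)
    (hx' : ∀ i, In J ((x i).val - 1)) (ha : ∀ i, In J ((a i).val - 1))
    (hb : ∀ i, In J ((b i).val - 1 - ε i)) (σ : Sx 1 X) :
    In J ((Cs.dif (Ms.bs V (Ms.slv C) a b hm hn hx) 1 -
      src (fun i => Wv.ct (C i) (Ms.zc K (V.T i).be)) ε) σ) :=
  In.eq (In.add ((Ms.bs_lin hm hx ua ub σ).mono mJ) (lin_in hC hx' ha hb σ))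
    (by rw [Pi.sub_apply, dif_one]; abel)

end Crest.Agent.N255.Jt

end
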