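import Crest.Agent.N255.Lp.Fam
import Crest.Agent.N255.Lz.Zn
import Crest.Agent.N255.Io.Crd
import Crest.Agent.N255.Cs.End
import Crest.Agent.N255.Cs.CapW

/-!
# Row 255 (helper48): first order jets of the affine families
-/

set_option autoImplicit false
open Set Module

noncomputable section

namespace Crest.Agent.N255.Jt

open Cs Cs.Tw Tp Ku Lp

variable {p : ℕ} [Fact p.Prime] {K O : Type} [Field K] [CommRing O] [Algebra K O]
  {G : Gr (Gm p) K O} {m I J Y : Ideal O} {X : Type} [TopologicalSpace X] {n : ℕ}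
  {g g0 g1 : Cn G X} {hm : G.Id m} {S : Co (Tw G) 2 X} {W P Q : Sb X}

/-- equality of first order jets on all simplices -/
def Jq (m : Ideal O) (φ ψ : Co (Tw G) n X) : Prop := ∀ σ, In (m * m) (φ σ - ψ σ)

namespace Jq

variable {φ φ' ψ ψ' χ : Co (Tw G) n X}

theorem of_eq (h : φ = ψ) : Jq m φ ψ := fun σ => by rw [h, sub_self]; exact Cs.in_zero

theorem refl (φ : Co (Tw G) n X) : Jq m φ φ := of_eq rfl

theorem symm (h : Jq m φ ψ) : Jq m ψ φ := fun σ => by simpa using In.neg (h σ)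

theorem trans (h : Jq m φ ψ) (h' : Jq m ψ χ) : Jq m φ χ := fun σ => by
  simpa using In.add (h σ) (h' σ)

theorem add (h : Jq m φ ψ) (h' : Jq m φ' ψ') : Jq m (φ + φ') (ψ + ψ') := fun σ =>
  In.eq (In.add (h σ) (h' σ)) (by simp only [Pi.add_apply]; abel)

theorem sub (h : Jq m φ ψ) (h' : Jq m φ' ψ') : Jq m (φ - φ') (ψ - ψ') := fun σ =>
  In.eq (In.sub (h σ) (h' σ)) (by simp only [Pi.sub_apply]; abel)

theorem neg (h : Jq m φ ψ) : Jq m (-φ) (-ψ) := fun σ =>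
  In.eq (In.neg (h σ)) (by simp only [Pi.neg_apply]; abel)

theorem eq (h : Jq m φ ψ) (e : φ' = φ) (e' : ψ' = ψ) : Jq m φ' ψ' := e ▸ e' ▸ h

theorem cob (h : Jq m φ ψ) : Jq m (cob K φ) (cob K ψ) := fun σ => by
  rw [← Pi.sub_apply, ← map_sub]
  exact ci_univ.1 (ci_cob (φ := φ - ψ) (ci_univ.2 h)) σ

theorem ci (h : Jq m φ ψ) (h' : CI W J ψ) : CI W (J ⊔ m * m) φ := fun σ hσ =>
  In.eq (In.add ((h σ).mono le_sup_right) ((h' σ hσ).mono le_sup_left)) (by abel)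

theorem ev (h : Jq m φ ψ) (c : Ch K n X) : In (m * m) (Tp.ev K φ c - Tp.ev K ψ c) := by
  rw [← Tp.ev_sub]
  exact CI.ev (φ := φ - ψ) (ci_univ.2 h) (mem_ch_univ c)

theorem ite (c : Sx n X → Prop) [DecidablePred c] (h : Jq m φ ψ) (h' : Jq m φ' ψ') :
    Jq m (fun σ => if c σ then φ σ else φ' σ) fun σ => if c σ then ψ σ else ψ' σ := fun σ => by
  beta_reduce
  split_ifs
  exacts [h σ, h' σ]

theorem src {ι : Type} [Fintype ι] (q : ι → Co K n X) {u u' : ι → Tw G}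
    (h : ∀ t, In (m * m) (u t - u' t)) : Jq m (src q u) (src q u') := fun σ => by
  rw [← Pi.sub_apply, ← src_sub]; exact src_in h σ

theorem tens [Module.Finite K O] {φ ψ : Co (Tw G) 2 X} (h : Jq m φ ψ)
    (H : Co K 2 X →ₗ[K] Co K 1 X) : Jq m (n := 1) (tens H φ) (tens H ψ) := fun σ => by
  rw [← tens_sub]; exact tens_in H h σ

theorem tev [Module.Finite K O] (h : Jq m φ ψ) (D : Dual K (Co K n X)) :
    In (m * m) (tev D φ - tev D ψ) := by
  rw [← map_sub]; exact tev_in D h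

end Jq

theorem dif_one (g : Cn G X) (σ : Sx 1 X) : Cs.dif g 1 σ = (g σ).val - 1 := rfl

/-- the curvature is the coboundary to first order -/
theorem jq_cur (h : ∀ σ, g σ ∈ U hm) : Jq m (cur g) (cob K (Cs.dif g 1)) := fun σ => by
  have := (sD X).F_lin hm h σ
  rwa [sD_d1 K] at this

/-- integer cochains in `K` -/
def zc (K : Type) [Field K] (α : Co ℤ n X) : Co K n X := fun σ => (α σ : K)

theorem zc_smul (α : Co ℤ n X) (σ : Sx n X) (x : Tw G) : zc K α σ • x = α σ • x :=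
  Int.cast_smul_eq_zsmul K _ _

theorem pow_jet {a b : (Tw G)ˣ} (ha : a ∈ U hm) (hb : b ∈ U hm) (i j : ℤ) :
    In (m * m) ((a ^ i * b ^ j).val - 1 - (i • (a.val - 1) + j • (b.val - 1))) :=
  In.eq (In.add (In.add (zpow_one_lin hm ha i) (zpow_one_lin hm hb j))
    (o_mul_mem hm hm (zpow_mem ha i) (zpow_mem hb j))) (by rw [Units.val_mul]; noncomm_ring)

/-- the base `a ^ α b ^ β` -/
theorem jq_pow {a b : (Tw G)ˣ} (ha : a ∈ U hm) (hb : b ∈ U hm) (α β : Co ℤ 1 X) :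
    Jq m (Cs.dif (fun σ => a ^ α σ * b ^ β σ) 1)
      (src ![zc K α, zc K β] ![a.val - 1, b.val - 1]) := fun σ =>
  In.eq (pow_jet ha hb (α σ) (β σ)) (by simp [dif_one, src, zc_smul])

theorem jq_T (T : To K X) {a b : (Tw G)ˣ} (ha : a ∈ U hm) (hb : b ∈ U hm) :
    Jq m (Cs.dif (T.g a b) 1) (src ![zc K T.al, zc K T.be] ![a.val - 1, b.val - 1]) :=
  jq_pow ha hb _ _

theorem v_jet {ι : Type} [Fintype ι] (M : Mg ι X) (hm : G.Id m) {μ : ι → Tw G}
    (h : ∀ i, In m (μ i)) (σ : Sx 1 X) : In (m * m) (M.v μ σ - src (fun i => zc K (M.x i)) μ σ) :=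
  In.eq (In.sum fun i (_ : i ∈ Finset.univ) => In.sum fun j (_ : j ∈ Finset.univ) =>
    In.zsmul (o_mul_mem hm hm (h i) (h j)) (M.y i j σ)) (by simp [Mg.v, src, zc_smul])

/-- the standard connection at a vertex -/
theorem jq_gst {ι : Type} [Fintype ι] (M : Mg ι X) (hn : IsNilpotent m) {μ : ι → Tw G}
    (h : ∀ i, In m (μ i)) : Jq m (Cs.dif (M.gst hm hn h) 1) (src (fun i => zc K (M.x i)) μ) :=
  fun σ => In.eq (v_jet M hm h σ) (by rw [dif_one, Mg.val_gst, add_sub_cancel_left])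

theorem dif_pl_one {hn : IsNilpotent m} {h0 : ∀ σ, g0 σ ∈ U hm} {a : Co (Tw G) 1 X}
    {ha : ∀ σ, In m (a σ)} : Cs.dif (pl hn g0 h0 a ha) 1 = Cs.dif g0 1 + a :=
  funext fun σ => by rw [Pi.add_apply, dif_one, dif_one, val_pl]; abel

theorem jq_pl {hn : IsNilpotent m} {h0 : ∀ σ, g0 σ ∈ U hm} {a a0 : Co (Tw G) 1 X}
    {ha : ∀ σ, In m (a σ)} (h : Jq m (Cs.dif g0 1) a0) :
    Jq m (Cs.dif (pl hn g0 h0 a ha) 1) (a0 + a) := (h.add (.refl a)).eq dif_pl_one rfl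

section fam

variable [Module.Finite K O] {H : Co K 2 X →ₗ[K] Co K 1 X} {ι : Type} [Fintype ι]
  {N : Co (Tw G) 2 X} {A B : Co (Tw G) 1 X}

theorem tens_src (H : Co K 2 X →ₗ[K] Co K 1 X) (q : ι → Co K 2 X) (u : ι → Tw G) :
    tens H (src q u) = src (fun t => H (q t)) u := funext fun _ => tev_src _ q u

variable (F : Fam hm H g1 S g)
include F

theorem nl_jq : Jq m (nl K g1 S g) (cur g1 - S) :=
  ci_univ.1 (nl_lin hm (F.cu1 _) (F.cu _) fun σ _ => u_sub hm (F.u σ) (F.u1 σ))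

theorem dif_jq (h : Jq m (cur g1 - S) N) : Jq m (Cs.dif g g1) (-tens H N) :=
  F.eq ▸ (((nl_jq F).trans h).tens H).neg

theorem cur_jq (h : Jq m (cur g1 - S) N) : Jq m (cur g - S) (N - cob K (tens H N)) := by
  refine (((nl_jq F).trans h).add (dif_jq F h).cob).eq ?_ ?_
  · rw [nl]; abel
  · rw [map_neg, sub_eq_add_neg]

omit [Module.Finite K O] F in
theorem base_jq (u1 : ∀ σ, g1 σ ∈ U hm) (h : Jq m (Cs.dif g1 1) (A + B)) (hS : Jq m S (cob K A)) :
    Jq m (cur g1 - S) (cob K B) :=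
  (((jq_cur u1).trans h.cob).sub hS).eq rfl (by rw [map_add, add_sub_cancel_left])

/-- **jet of the family**: `A` is the part of the base whose coboundary is the source -/
theorem dif_jet {r : ι → Co K 1 X} {u : ι → Tw G} (h : Jq m (Cs.dif g1 1) (A + src r u))
    (hS : Jq m S (cob K A)) :
    Jq m (Cs.dif g 1) (A + src (fun t => r t - H (cob K (r t))) u) := by
  refine (h.add (dif_jq F (base_jq F.u1 h hS))).eq ?_ ?_
  · funext σ; simp only [Cs.dif, Pi.add_apply]; abel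
  · rw [cob_src, tens_src]
    funext σ
    simp [src, sub_eq_add_neg, add_smul, Finset.sum_add_distrib,
      add_assoc]

/-- **jet of the normalised curvature** -/
theorem cur_jet {r : ι → Co K 1 X} {u : ι → Tw G} (h : Jq m (Cs.dif g1 1) (A + src r u))
    (hS : Jq m S (cob K A)) :
    Jq m (cur g - S) (src (fun t => cob K (r t - H (cob K (r t)))) u) :=
  cob_src (K := K) (q := fun t => r t - H (cob K (r t))) (ε := u) ▸ base_jq F.u (dif_jet F h hS) hS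

/-- located form -/
theorem cur_ci {r : ι → Co K 1 X} {u : ι → Tw G} (h : Jq m (Cs.dif g1 1) (A + src r u))
    (hS : Jq m S (cob K A))
    (hu : ∀ t, In J (u t) ∨ cob K (r t - H (cob K (r t))) ∈ W.van K K 2) :
    CI W (J ⊔ m * m) (cur g - S) := (cur_jet F h hS).ci (src_ci hu)

/-- global form: only the ideal of the coefficients matters -/
theorem cur_in (h : Jq m (Cs.dif g1 1) (A + B)) (hS : Jq m S (cob K A)) (hB : ∀ σ, In J (B σ)) :
    CI W (J ⊔ m * m) (cur g - S) := by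
  have h1 : ∀ σ, In J (cob K B σ) := ci_univ.1 (ci_cob (ci_univ.2 hB))
  exact (cur_jq F (base_jq F.u1 h hS)).ci (ci_sub (fun σ _ => h1 σ)
    (ci_cob fun σ _ => tens_in H h1 σ))

theorem dif_in (h : Jq m (Cs.dif g1 1) (A + B)) (hS : Jq m S (cob K A)) (hB : ∀ σ, In J (B σ)) :
    CI W (J ⊔ m * m) (Cs.dif g 1 - A) := by
  have h1 : ∀ σ, In J (cob K B σ) := ci_univ.1 (ci_cob (ci_univ.2 hB))
  refine Jq.ci (ψ := B + -tens H (cob K B)) ?_ fun σ _ => In.add (hB σ) (In.neg (tens_in H h1 σ))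
  refine ((h.add (dif_jq F (base_jq F.u1 h hS))).sub (.refl A)).eq ?_ (by abel)
  funext σ; simp only [Cs.dif, Pi.add_apply, Pi.sub_apply]; abel

/-- jet of the input of the parametrix, for the periods `tev D N` -/
theorem nl_jet {r : ι → Co K 1 X} {u : ι → Tw G} (h : Jq m (Cs.dif g1 1) (A + src r u))
    (hS : Jq m S (cob K A)) : Jq m (nl K g1 S g) (src (fun t => cob K (r t)) u) :=
  cob_src (K := K) (q := r) (ε := u) ▸ (nl_jq F).trans (base_jq F.u1 h hS)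

theorem tev_nl_jet {r : ι → Co K 1 X} {u : ι → Tw G} (h : Jq m (Cs.dif g1 1) (A + src r u))
    (hS : Jq m S (cob K A)) (D : Dual K (Co K 2 X)) :
    In (m * m) (tev D (nl K g1 S g) - ∑ t, D (cob K (r t)) • u t) :=
  tev_src D (fun t => cob K (r t)) u ▸ (nl_jet F h hS).tev D

end fam

section W

variable [Fact ((p : O) = 0)]

/-- the quadratic part of the Chern-Simons term -/
theorem CS_quad (h : CU P hm g) {c : Ch K 3 X} (hc : c ∈ P.ch K 3) :
    Tp.ev K (CS g) c - Tp.ev K (cup (lB G) 3 (Cs.dif g 1) (cur g)) c ∈ m * (m * m) := by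
  rw [← Tp.ev_sub]
  refine ev_ideal (fun σ hσ => ?_) hc
  rw [Pi.sub_apply, cup12, lB_apply, dif_one, map_sub, D_one, sub_zero, cur_e3]
  exact lam_unit hm (hm.mul hm) (o_mul_mem hm hm (D_mem_U hm (h.gs hσ 0 1))
    (fc_mem_of_U hm (h.gs hσ 1 2) (h.gs hσ 2 3) (h.gs hσ 1 3))) (h.gs hσ 0 3)

omit [Fact ((p : O) = 0)] in
theorem cup12_mem (hI : G.Id I) (hJ : G.Id J) {φ : Co (Tw G) 1 X} {ψ : Co (Tw G) 2 X}
    (h : CI P I φ) (h' : CI P J ψ) {c : Ch K 3 X} (hc : c ∈ P.ch K 3) :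
    Tp.ev K (cup (lB G) 3 φ ψ) c ∈ I * J :=
  ev_ideal (fun σ hσ => by
    rw [cup12, lB_apply]
    exact lam_mem (hI.mul hJ) (o_mul_mem hI hJ (D_mem hI (h _ (e2_mem P hσ (by decide))))
      (h' _ (e3_mem P hσ (by decide) (by decide))))) hc

omit [Fact ((p : O) = 0)] in
/-- Stokes: closed compactly supported against exact -/
theorem cup_exact {A θ : Co (Tw G) 1 X} (h1 : A ∈ P.Z K (Tw G) 1) (h2 : A ∈ Q.van K (Tw G) 1)
    {c : Ch K 3 X} (hc : c ∈ P.ch K 3) (hb : bd K c ∈ Q.ch K 2) :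
    Tp.ev K (cup (lB G) 3 A (cob K θ)) c = 0 := by
  have e := congrArg (fun φ => Tp.ev K φ c) (cupS_holds K _ _ _ (lB G) X 1 1 2 rfl A θ)
  have e1 : Tp.ev K (cup (lB G) 2 A θ) (bd K c) = 0 := Q.ev_eq_zero (fun σ hσ => by
    rw [cup11, h2 _ (e2_mem Q hσ (by decide)), map_zero, LinearMap.zero_apply]) hb
  have e2 : Tp.ev K (cup (lB G) 3 (cob K A) θ) c = 0 := P.ev_eq_zero (fun σ hσ => by
    rw [cup21, h1 _ (e3_mem P hσ (by decide) (by decide)), map_zero, LinearMap.zero_apply]) hc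
  simp only [← Tp.ev_bd, Tp.ev_add, Tp.ev_smul, e1, e2] at e
  simpa using e.symm

/-- **the quadratic part of the potential**, weak form -/
theorem W_weak (T : To K X) (hY : G.Id Y) (h : CU P hm g) (f : CI P (Y ⊔ m * m) (cur g))
    {σ : Ch K 3 X} (hσ : σ ∈ P.ch K 3) {a b : (Tw G)ˣ} (ha : a ∈ U hY) (hb : b ∈ U hm) :
    T.W σ g a b ∈ Y * m ⊔ m ^ 3 := by
  refine (sup_le ?_ le_sup_left : _ ≤ Y * m ⊔ m ^ 3)
    (T.W_mem (hY.sup (hm.mul hm)) hY hm h f hσ ha hb)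
  rw [Ideal.mul_sup, mul_comm m Y, pow_three]

/-- **the quadratic part of the potential**: `A` = the part of the connection with compact support,
`θ` = a primitive of the linear part of the curvature -/
theorem W_strong (T : To K X) (hY : G.Id Y) (hJ : G.Id J) (Ym : Y ≤ m) (h : CU P hm g)
    {A θ : Co (Tw G) 1 X} (h1 : A ∈ P.Z K (Tw G) 1) (h2 : A ∈ Q.van K (Tw G) 1)
    (hA : CI P (J ⊔ m * m) (Cs.dif g 1 - A)) (hθ : CI P (m * m) (cur g - cob K θ))
    (hY' : CI P Y (cob K θ)) {σ : Ch K 3 X} (hσ : σ ∈ P.ch K 3) (hb : bd K σ ∈ Q.ch K 2)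
    {a b : (Tw G)ˣ} (ha : a ∈ U hY) (hb' : b ∈ U hJ) : T.W σ g a b ∈ Y * J ⊔ m ^ 3 := by
  have hmm := hm.mul hm
  have e1 := CS_quad h hσ
  have e2 := cup12_mem hm hmm (φ := Cs.dif g 1) h hθ hσ
  have e3 := cup12_mem (hJ.sup hmm) hY hA hY' hσ
  have e4 := cup_exact (θ := θ) h1 h2 hσ hb
  have l1 : m * (m * m) ≤ Y * J ⊔ m ^ 3 := pow_three m ▸ le_sup_right
  have l2 : (J ⊔ m * m) * Y ≤ Y * J ⊔ m ^ 3 := by
    rw [Ideal.sup_mul, mul_comm J Y, pow_three']
    exact sup_le_sup_left (Ideal.mul_mono_right Ym) _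
  have e5 : Tp.ev K (cup (lB G) 3 (Cs.dif g 1) (cur g)) σ =
      Tp.ev K (cup (lB G) 3 (Cs.dif g 1) (cur g - cob K θ)) σ +
        Tp.ev K (cup (lB G) 3 (Cs.dif g 1 - A) (cob K θ)) σ +
          Tp.ev K (cup (lB G) 3 A (cob K θ)) σ := by
    rw [← Tp.ev_add, ← Tp.ev_add]
    congr 2
    funext τ
    simp only [cup, Pi.add_apply, Pi.sub_apply, map_sub, LinearMap.sub_apply]
    abel
  rw [e5, e4, add_zero] at e1
  have := add_mem (add_mem (l1 e1) (add_mem (l1 e2) (l2 e3)))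
    (Ideal.mem_sup_left (T.cap_mem hY hJ ha hb'))
  rwa [sub_add_cancel] at this

end W

/-- **W0 for a family**: `A` compactly supported, closed on the zone `P` of `σ`; the coefficient `u t`
lies in `Y` unless its class stays closed on `P` -/
theorem fam_W [Fact ((p : O) = 0)] [Module.Finite K O] {H : Co K 2 X →ₗ[K] Co K 1 X} {ι : Type}
    [Fintype ι] (F : Fam hm H g1 S g) {A : Co (Tw G) 1 X} {r : ι → Co K 1 X} {u : ι → Tw G}
    (h : Jq m (Cs.dif g1 1) (A + src r u)) (hS : Jq m S (cob K A)) (T : To K X) (hY : G.Id Y)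
    (hJ : G.Id J) (Ym : Y ≤ m) (h1 : A ∈ P.Z K (Tw G) 1) (h2 : A ∈ Q.van K (Tw G) 1)
    (hu : ∀ t, In J (u t)) (hu' : ∀ t, In Y (u t) ∨ cob K (r t - H (cob K (r t))) ∈ P.van K K 2)
    {σ : Ch K 3 X} (hσ : σ ∈ P.ch K 3) (hb : bd K σ ∈ Q.ch K 2) {a b : (Tw G)ˣ} (ha : a ∈ U hY)
    (hb' : b ∈ U hJ) : CI P (Y ⊔ m * m) (cur g) ∧ T.W σ g a b ∈ Y * J ⊔ m ^ 3 := by
  have k1 : CI P (m * m) (cur g - cob K (src (fun t => r t - H (cob K (r t))) u)) := fun τ hτ => by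
    have := In.add (cob_src (K := K) (q := fun t => r t - H (cob K (r t))) (ε := u) ▸ cur_jet F h hS τ)
      (hS τ)
    rw [h1 τ hτ] at this
    exact In.eq this (by simp only [Pi.sub_apply]; abel)
  have k2 : CI P Y (cob K (src (fun t => r t - H (cob K (r t))) u)) := by
    rw [cob_src]; exact src_ci hu'
  exact ⟨fun τ hτ => In.eq (In.add ((k2 τ hτ).mono le_sup_left) ((k1 τ hτ).mono le_sup_right))
      (by simp only [Pi.sub_apply]; abel),
    W_strong T hY hJ Ym (F.cu P) h1 h2 (dif_in F h hS (src_in hu)) k1 k2 hσ hb ha hb'⟩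

section gz

variable {κ α ι : Type} [Fintype κ] [Fintype α] {Z : Lz.Gz K X κ α ι} {ε : α → Tw G}

theorem lin_eq (q : α → Co K n X) (ε : α → Tw G) : Lz.lin q ε = src q ε := rfl

/-- the generators lie in every graded ideal that contains the normalised curvature -/
theorem E_mem (hJ : G.Id J) (h : ∀ σ, In J (Z.f g ε σ)) (a : α) (γ : Gm p) : Z.E g ε a γ ∈ J :=
  Lz.co_mem hJ (CI.ev (ci_univ.2 h) (mem_ch_univ _)) (CI.ev (ci_univ.2 h) (mem_ch_univ _)) γ

omit [Fintype κ] in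
theorem f_in (h : CI W J (cur g - S)) (h' : CI W J (S - src Z.q ε)) : CI W J (Z.f g ε) := by
  rw [Lz.Gz.f, lin_eq, ← sub_add_sub_cancel (cur g) S]
  exact ci_add h h'

end gz

end Crest.Agent.N255.Jt

end
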