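import Crest.Agent.N255.Jt.Vl
import Crest.Agent.N255.Ma.Vd

/-!
# Row 255 (helper48): the linear parts at a vertex: the generators have no far linear term
-/

set_option autoImplicit false
open Set Module Sum

noncomputable section

namespace Crest.Agent.N255.Ma
open Tp Nv Pt Lv En Wn Le Cs Cs.Tw Jt _root_.N255.Core _root_.N255.Dr _root_.N255.Dr.O

variable (p : ℕ) [Fact p.Prime] {J : Fin 3 → Type} [∀ i, Fintype (J i)]

variable (J) in
/-- the variables `y` and the `w` of the `L` slots -/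
def YN (o : Fin 3 → Bool) : Set (Σ i, Uv p (J i)) :=
  {q | q.2.1 = inr true ∨ q.2.1 = inr false ∧ o q.1 = false}

/-- the variables which are not far -/
def NF (τ : ∀ i, Ty (J i)) (o : Fin 3 → Bool) : Set (Σ i, Uv p (J i)) :=
  {q | (τ q.1).kdU p q.2 ≠ some (!o q.1)}

variable {p} {F : Subgroup F3} {S : Type} [MulAction F3 S] {X : Type} [TopologicalSpace X]
  [MulAction F X] [ContinuousConstSMul F X] {g : Geo F (ZMod p) S X} {u R₀ : ℝ} {n : ℕ}
  {τ : ∀ i, Ty (J i)} {v : F3} {h o : Fin 3 → Bool}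

omit [Fact p.Prime] [∀ i, Fintype (J i)] in
theorem YN_NF : YN p J o ⊆ NF p τ o := by
  rintro ⟨i, x, γ⟩ (e | ⟨e, f⟩) <;> dsimp only at e <;> subst e
  · simp [NF, Ty.kdU]
  · simpa [NF, Ty.kdU] using f

omit [Fact p.Prime] [∀ i, Fintype (J i)] in
theorem YN_YW : YN p J o ⊆ {q | ∃ c, q.2.1 = inr c} := fun _ e => e.elim (⟨_, ·⟩) (⟨_, ·.1⟩)

theorem xV_Jl {T : Set (Σ i, Uv p (J i))} {q : Cl3 J} (e : ∀ γ, ⟨q.1, q.2, γ⟩ ∈ T) :
    In (Jl p (ZMod p) T) (xV p q) := sum_mem fun γ _ => z_Jl (e γ)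

namespace Vd
variable (D : Vd g u R₀ n τ v h o)

theorem C_dj48 : Pairwise fun i j => Disjoint (D.C i) (D.C j) := fun _ _ e =>
  (subset_compl_iff_disjoint_right).1 (Vl.hi_compl e (D.c_pos _).le (D.c_pos _).le)

theorem la_s48 (i : Fin 3) : In (mx * mx) (D.la i) := D.V0.la_in (G2_mx p J) (xM_U p o) i

/-- the jumps of the longitudes -/
def εw (_D : Vd g u R₀ n τ v h o) (i : Fin 3) : Tw (G2 p J) := if o i then xV p ⟨i, inr false⟩ else 0

theorem be_x48 (i : Fin 3) : Ms.zc (ZMod p) (D.V0.T i).be - (D.ω i).η = (D.ω i).xw :=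
  congrArg (· - (D.ω i).η) (funext fun σ => Lev.mz_cast (ZMod p) σ)

theorem lj : Lj D.lin.cG D.xG D.εw D.C (fun i => Ms.zc (ZMod p) (D.V0.T i).be) (fun i => (D.ω i).η) o
    D.G0 (Jl p (ZMod p) (YN p J o)) := by
  refine lj_bs le_sup_right D.C_dj48 (fun _ => uV_U p _) D.bV_U (fun i => ?_) (fun i => ?_)
    (fun i => ?_) D.lin.y D.lin.wM (fun _ => rfl) fun i e => by rw [εw, e]; exact in_zero
  · rw [xM, uV_sub]
    exact xV_Jl fun γ => by rcases e : o i; exacts [.inr ⟨rfl, e⟩, .inl rfl]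
  · rw [aV, uV_sub]; exact xV_Jl fun γ => .inl rfl
  · rw [bV, εw]
    split_ifs with e
    · exact In.eq ((D.la_s48 i).mono le_sup_right) (by rw [val_un]; abel)
    · rw [uV_sub, sub_zero]; exact xV_Jl fun γ => .inr ⟨rfl, by simpa using e⟩

theorem SG_e48 : D.SG = cob (ZMod p) (Jt.pr D.lin.cG D.xG D.εw D.C
    (fun i => Ms.zc (ZMod p) (D.V0.T i).be) fun i => (D.ω i).η) := by
  funext σ
  have k : ∀ i, D.qa ⟨i, inr false⟩ σ • xV p ⟨i, inr false⟩ = cob (ZMod p) (D.ew i) σ • D.εw i :=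
    fun i => by by_cases e : o i = true <;> simp [qa, pq, εw, e]
  have k' : ∀ i, D.qa ⟨i, inr true⟩ = 0 := fun i => by simp [qa, pq]
  simp only [cob_pr, SG, Lp.src, Pi.add_apply, Fintype.sum_sigma, Fintype.sum_sum_type,
    Fintype.sum_bool, D.lin.cob_inl, be_x48, k, k', Pi.zero_apply, zero_smul, zero_add,
    Finset.sum_add_distrib]
  rfl

theorem hS48 {I : Ideal (OV p J)} (σ : Sx 2 X) : In I ((D.SG - cob (ZMod p) (Jt.pr D.lin.cG D.xG D.εw D.C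
    (fun i => Ms.zc (ZMod p) (D.V0.T i).be) fun i => (D.ω i).η)) σ) := by
  rw [← SG_e48, sub_self]; exact in_zero

/-- the nonlinear term -/
theorem nl_J (σ : Sx 2 X) : In (Jl p (ZMod p) (YN p J o)) (Lp.nl (ZMod p) D.G1 D.SG D.GV σ) :=
  D.lj.nl D.fam le_sup_right D.hS48 σ

theorem dif_J (σ : Sx 1 X) : In (Jl p (ZMod p) (YN p J o)) (Cs.dif D.GV D.G1 σ) :=
  D.lj.dif1 D.fam le_sup_right D.hS48 σ

theorem cur_J (σ : Sx 2 X) : In (Jl p (ZMod p) (YN p J o)) ((cur D.GV - D.SG) σ) :=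
  D.lj.cur D.fam le_sup_right D.hS48 σ

theorem XV_J : D.XV ≤ Jl p (ZMod p) (YN p J o) := by
  refine sup_le ((id_Jl (G2_z p J) _).sp_le.2 ?_) (le_sup_of_le_right
    (Ideal.mul_mono (Ideal.mul_le_left.trans (NV_le p o)) (NV_le p o)))
  rintro _ ⟨i, rfl⟩
  rw [Ms.ja]
  split_ifs with e
  · rw [xM, e, aV, sub_self]; exact in_zero
  · exact In.eq (In.sub (xV_Jl (q := ⟨i, inr true⟩) fun γ => .inl rfl) ((D.la_s48 i).mono le_sup_right))
      (by rw [← uV_sub, aV, la]; abel)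

theorem bX_m48 (i : D.βX) : D.bX i ∈ D.XV := D.span_bX.le (Ideal.subset_span ⟨i, rfl⟩)

variable (K : Set X) (ρ : D.Ix → Ch (ZMod p) 4 X)

/-- the near sources -/
theorem near_J (σ : Sx 2 X) :
    In (Jl p (ZMod p) (NF p τ o)) ((D.SG - Lp.src (D.Y K ρ).q D.ε) σ) := by
  classical
  have e := Finset.sum_subtype (p := fun q : Cl3 J => (τ q.1).kb q.2 = some (!o q.1))
    (F := (inferInstance : Fintype (Fr τ o))) 
    (Finset.univ.filter fun q => (τ q.1).kb q.2 = some (!o q.1)) (fun _ => by simp)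
    fun q => D.qa q σ • xV p q
  refine In.eq (In.sum fun q (hq : q ∈ Finset.univ.filter
    fun q : Cl3 J => ¬ (τ q.1).kb q.2 = some (!o q.1)) =>
      Ku.in_smul (D.qa q σ) (xV_Jl (T := NF p τ o) fun γ => (Finset.mem_filter.1 hq).2)) ?_
  exact sub_eq_iff_eq_add'.2 ((Finset.sum_filter_add_sum_filter_not _ _ _).symm.trans
    (congrArg (· + _) e))

/-- **the normalised curvature has no far linear term** -/
theorem f_J (σ : Sx 2 X) : In (Jl p (ZMod p) (NF p τ o)) (D.f K ρ σ) :=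
  Lp.ci_univ.1 (f_in (Lp.ci_univ.2 fun σ => (D.cur_J σ).mono (Jl_mono YN_NF)) (Lp.ci_univ.2 (D.near_J K ρ))) σ

/-- **the generators have no far linear term** -/
theorem hJ (a : D.Ga K ρ) : (D.Z K ρ).E a ∈ Jl p (ZMod p) (NF p τ o) := by
  have hI := id_Jl (G2_z p J) (NF p τ o)
  rcases a with a | i | i
  · exact Jt.E_mem hI (D.f_J K ρ) a.1 a.2
  · exact Jl_mono YN_NF (D.XV_J (D.bX_m48 i))
  · rcases Lz.Gz.bx_inr (dp := D.dp) (b := D.bX) i with e | ⟨-, -, e⟩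
    · exact (show (D.Y K ρ).bx D.GV D.ε D.dp D.bX (.inr i) ∈ _ from e ▸ zero_mem _)
    · exact (Lz.vI_le hI).2 (fun σ _ => D.f_J K ρ σ) e

theorem hJ48 (a : D.Ga K ρ) :
    (D.Z K ρ).E a ∈ Jl p (ZMod p) {q | (τ q.1).kb q.2.1 ≠ some (!o q.1)} := D.hJ K ρ a

theorem hE48 (a : D.Ga K ρ) : (D.Z K ρ).E a ∈ mx := Jl_mx (D.hJ K ρ a)

theorem DE48 {q : Σ i, Uv p (J i)} (hq : (τ q.1).kdU p q.2 = some (!o q.1)) (a : D.Ga K ρ) :
    pd q ((D.Z K ρ).E a) ∈ mx := pd_Jl (T := NF p τ o) (fun e => e hq) (D.hJ K ρ a)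

theorem Pu_J : (D.Z K ρ).Pu ≤ Jl p (ZMod p) (NF p τ o) := Pu_le (D.hJ K ρ)

end Vd

end Crest.Agent.N255.Ma

end
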