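import Crest.Agent.N255.Jt.Bs

/-!
# Row 255 (helper48): the primitive of the sources of the vertex family
-/

set_option autoImplicit false
open Set Module Sum

noncomputable section

namespace Crest.Agent.N255.Jt

open Cs Cs.Tw Tp Ku Lp

variable {p : ℕ} [Fact p.Prime] {K O : Type} [Field K] [CommRing O] [Algebra K O]
  {G : Gr (Gm p) K O} {m I : Ideal O} {X : Type} [TopologicalSpace X]
  {g g0 : Cn G X} {hm : G.Id m} {S : Co (Tw G) 2 X}
  {J : Fin 3 → Type} [∀ i, Fintype (J i)] {t : Fin 3 → Bool}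
  {cG : (Σ i, J i ⊕ Bool) → Co K 1 X} {xG : (Σ i, J i ⊕ Bool) → Tw G} {ε : Fin 3 → Tw G}
  {C : Fin 3 → Set X} {β η : Fin 3 → Co K 1 X}

theorem ct_sub' (A : Set X) {n : ℕ} (u v : Co K n X) : Wv.ct A (u - v) = Wv.ct A u - Wv.ct A v :=
  funext fun σ => by
    simp only [Ms.ct_apply, Pi.sub_apply]
    split_ifs <;> simp

variable (cG xG ε C β η) in
/-- the primitive of the sources -/
def pr : Co (Tw G) 1 X :=
  src (fun q : Σ i, J i => cG ⟨q.1, inl q.2⟩) (fun q => xG ⟨q.1, inl q.2⟩) +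
    src (fun i => Wv.ct (C i) (β i - η i)) ε

theorem cob_pr : cob K (pr cG xG ε C β η) =
    src (fun q : Σ i, J i => cob K (cG ⟨q.1, inl q.2⟩)) (fun q => xG ⟨q.1, inl q.2⟩) +
      src (fun i => cob K (Wv.ct (C i) (β i - η i))) ε := by
  rw [pr, map_add, cob_src, cob_src]

/-- the linear data at a vertex, modulo `I` -/
structure Lj (cG : (Σ i, J i ⊕ Bool) → Co K 1 X) (xG : (Σ i, J i ⊕ Bool) → Tw G) (ε : Fin 3 → Tw G)
    (C : Fin 3 → Set X) (β η : Fin 3 → Co K 1 X) (t : Fin 3 → Bool) (g0 : Cn G X) (I : Ideal O) :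
    Prop where
  h0 : ∀ σ, In I ((Cs.dif g0 1 - src (fun i => Wv.ct (C i) (β i)) ε) σ)
  y : ∀ i, cG ⟨i, inr true⟩ = 0
  wM : ∀ i, t i = true → cG ⟨i, inr false⟩ = -Wv.ct (C i) (η i)
  hM : ∀ i, t i = true → In I (xG ⟨i, inr false⟩ - ε i)
  hL : ∀ i, t i = false → In I (xG ⟨i, inr false⟩) ∧ In I (ε i)

variable {hn : IsNilpotent m} {u0 : ∀ σ, g0 σ ∈ U hm} {ha : ∀ σ, In m (src cG xG σ)}

namespace Lj

variable (h : Lj cG xG ε C β η t g0 I)
include h

theorem dif (σ : Sx 1 X) : In I ((Cs.dif (pl hn g0 u0 (src cG xG) ha) 1 - pr cG xG ε C β η) σ) := by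
  have k : ∀ i, In I (cG ⟨i, inr false⟩ σ • xG ⟨i, inr false⟩ + Wv.ct (C i) (η i) σ • ε i) := fun i => by
    rcases e : t i
    · exact In.add (in_smul _ (h.hL i e).1) (in_smul _ (h.hL i e).2)
    · exact In.eq (in_smul (-Wv.ct (C i) (η i) σ) (h.hM i e)) (by
        rw [h.wM i e, Pi.neg_apply, smul_sub, neg_smul, neg_smul, sub_neg_eq_add])
  refine In.eq (In.add (h.h0 σ) (In.sum fun i (_ : i ∈ Finset.univ) => k i)) ?_
  simp only [dif_pl_one, pr, src, ct_sub', Pi.add_apply, Pi.sub_apply, Fintype.sum_sigma,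
    Fintype.sum_sum_type, Fintype.sum_bool, h.y, Pi.zero_apply, zero_smul, zero_add, sub_smul,
    Finset.sum_add_distrib, Finset.sum_sub_distrib]
  abel

variable [Module.Finite K O] {H : Co K 2 X →ₗ[K] Co K 1 X}
  (F : Fam hm H (pl hn g0 u0 (src cG xG) ha) S g) (mI : m * m ≤ I)
  (hS : ∀ σ, In I ((S - cob K (pr cG xG ε C β η)) σ))
include F mI hS

theorem nl (σ : Sx 2 X) : In I (nl K (pl hn g0 u0 (src cG xG) ha) S g σ) := fam_nl F mI h.dif hS σ

theorem dif1 (σ : Sx 1 X) : In I (Cs.dif g (pl hn g0 u0 (src cG xG) ha) σ) :=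
  fam_dif F mI h.dif hS σ

/-- **the normalised curvature of the vertex family lies in `I`** -/
theorem cur (σ : Sx 2 X) : In I ((cur g - S) σ) := fam_cur F mI h.dif hS σ

theorem tev (D : Dual K (Co K 2 X)) : In I (tev D (Lp.nl K (pl hn g0 u0 (src cG xG) ha) S g)) :=
  fam_tev F mI h.dif hS D

end Lj

omit [∀ i, Fintype (J i)] in
/-- the data for the base of helper2 -/
theorem lj_bs {V : Vt K X t} {x a b : Fin 3 → (Tw G)ˣ} {hx : ∀ j, x j ∈ U hm} (mI : m * m ≤ I)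
    (hC : Pairwise fun i j => Disjoint (C i) (C j)) (ua : ∀ j, a j ∈ U hm) (ub : ∀ j, b j ∈ U hm)
    (hx' : ∀ i, In I ((x i).val - 1)) (ha : ∀ i, In I ((a i).val - 1))
    (hb : ∀ i, In I ((b i).val - 1 - ε i)) (y : ∀ i, cG ⟨i, inr true⟩ = 0)
    (wM : ∀ i, t i = true → cG ⟨i, inr false⟩ = -Wv.ct (C i) (η i))
    (hw : ∀ i, xG ⟨i, inr false⟩ = (b i).val - 1) (hL : ∀ i, t i = false → In I (ε i)) :
    Lj cG xG ε C (fun i => Ms.zc K (V.T i).be) η t (Ms.bs V (Ms.slv C) a b hm hn hx) I :=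
  ⟨bs_in mI hC ua ub hx' ha hb, y, wM, fun i _ => (hw i).symm ▸ hb i, fun i e =>
    ⟨(hw i).symm ▸ In.eq (In.add (hb i) (hL i e)) (sub_add_cancel _ _).symm, hL i e⟩⟩

end Crest.Agent.N255.Jt

end
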